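import Mathlib

/-!
# P100: the planar case

A positive function on the punctured plane with negative Laplacian does not exist: the barriers
`u + ε log |z|` push its minimum onto the unit circle from outside (`ε > 0`) and from inside
(`ε < 0`), and such a function has no interior local minimum.
-/

open Filter Topology Set Real InnerProductSpace
open scoped Laplacian

namespace Vale.Agent.P100.Planar

/-- The second derivative in every direction is nonnegative at a local minimum. -/
theorem second_nonneg {f : ℂ → ℝ} {x : ℂ} (hf : ContDiffAt ℝ 2 f x) (hmin : IsLocalMin f x)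
    (a : ℂ) : 0 ≤ fderiv ℝ (fderiv ℝ f) x a a := by
  set g : ℝ → ℝ := fun t => f (x + t • a) with hg
  have hline : ∀ t : ℝ, HasDerivAt (fun t : ℝ => x + t • a) a t := fun t => by
    simpa using ((hasDerivAt_id t).smul_const a).const_add x
  have hline0 : ContinuousAt (fun t : ℝ => x + t • a) 0 := (hline 0).continuousAt
  have hx0 : x + (0 : ℝ) • a = x := by simp
  have hev : deriv g =ᶠ[𝓝 0] fun t => fderiv ℝ f (x + t • a) a := by
    have h : ∀ᶠ y in 𝓝 x, DifferentiableAt ℝ f y :=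
      (hf.eventually (by simp)).mono fun y hy => hy.differentiableAt (by norm_num)
    rw [← hx0] at h
    filter_upwards [hline0.eventually h] with t ht
    exact (ht.hasFDerivAt.comp_hasDerivAt t (hline t)).deriv
  have hd2 : HasDerivAt (deriv g) (fderiv ℝ (fderiv ℝ f) x a a) 0 := by
    refine HasDerivAt.congr_of_eventuallyEq ?_ hev
    have h1 : DifferentiableAt ℝ (fderiv ℝ f) (x + (0 : ℝ) • a) := by
      rw [hx0]
      exact (hf.fderiv_right (m := 1) (by norm_num)).differentiableAt (by norm_num)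
    have h2 := h1.hasFDerivAt.comp_hasDerivAt 0 (hline 0)
    have h3 := ((ContinuousLinearMap.apply ℝ ℝ a).hasFDerivAt).comp_hasDerivAt (0 : ℝ) h2
    rw [hx0] at h3
    simpa [Function.comp_def] using h3
  have hgmin : IsLocalMin g 0 := by
    have h : IsLocalMin f (x + (0 : ℝ) • a) := by rwa [hx0]
    exact h.comp_continuous (g := fun t : ℝ => x + t • a) hline0
  by_contra hneg
  push Not at hneg
  have hgc : ContinuousAt g 0 := by
    have h : ContinuousAt f (x + (0 : ℝ) • a) := by rw [hx0]; exact hf.continuousAt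
    exact ContinuousAt.comp_of_eq (f := fun t : ℝ => x + t • a) h hline0 rfl
  have hmax : IsLocalMax g 0 :=
    isLocalMax_of_deriv_deriv_neg (by rw [hd2.deriv]; exact hneg) hgmin.deriv_eq_zero hgc
  have hconst : g =ᶠ[𝓝 0] fun _ => g 0 := by
    filter_upwards [hgmin, hmax] with t h1 h2
    exact le_antisymm h2 h1
  have h0 : deriv g =ᶠ[𝓝 0] fun _ => (0 : ℝ) :=
    hconst.deriv.trans (Eventually.of_forall fun t => deriv_const t _)
  have := h0.deriv_eq
  rw [hd2.deriv, deriv_const] at this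
  exact hneg.ne this

theorem laplacian_nonneg_of_min {f : ℂ → ℝ} {x : ℂ} (hf : ContDiffAt ℝ 2 f x)
    (hmin : IsLocalMin f x) : 0 ≤ Δ f x := by
  rw [laplacian_eq_iteratedFDeriv_complexPlane]
  simp only [iteratedFDeriv_two_apply, Matrix.cons_val_zero, Matrix.cons_val_one]
  exact add_nonneg (second_nonneg hf hmin _) (second_nonneg hf hmin _)

/-- Comparison with `ε log |z|` on an annulus. -/
theorem annulus {u : ℂ → ℝ} (hu : ∀ z ≠ 0, ContDiffAt ℝ 2 u z) (hlap : ∀ z ≠ 0, Δ u z < 0)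
    {r R ε m : ℝ} (hr : 0 < r) {z : ℂ} (hz : r ≤ ‖z‖ ∧ ‖z‖ ≤ R)
    (hin : ∀ w : ℂ, ‖w‖ = r → m ≤ u w + ε * log ‖w‖)
    (hout : ∀ w : ℂ, ‖w‖ = R → m ≤ u w + ε * log ‖w‖) :
    m ≤ u z + ε * log ‖z‖ := by
  set K : Set ℂ := {w | r ≤ ‖w‖ ∧ ‖w‖ ≤ R} with hK
  have hne : ∀ w ∈ K, w ≠ 0 := by
    rintro w hw rfl
    simp only [hK, Set.mem_ofPred_eq, norm_zero] at hw
    linarith [hw.1]
  have hKc : IsCompact K := by
    refine (isCompact_closedBall (0 : ℂ) R).of_isClosed_subset ?_ fun w hw => by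
      simpa using hw.2
    exact (isClosed_le continuous_const continuous_norm).inter
      (isClosed_le continuous_norm continuous_const)
  have hlog : ∀ w ∈ K, HarmonicAt (fun y : ℂ => log ‖y‖) w := fun w hw =>
    analyticAt_id.harmonicAt_log_norm (hne w hw)
  set h : ℂ → ℝ := fun w => u w + ε * log ‖w‖ with hh
  have hd : ∀ w ∈ K, ContDiffAt ℝ 2 h w := fun w hw =>
    (hu w (hne w hw)).add (contDiffAt_const.mul (hlog w hw).1)
  obtain ⟨w, hwK, hw⟩ := hKc.exists_isMinOn ⟨z, hz⟩
    (fun w hw => (hd w hw).continuousAt.continuousWithinAt)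
  refine le_trans ?_ (hw (show z ∈ K from hz))
  rcases eq_or_lt_of_le hwK.1 with h1 | h1
  · exact hin w h1.symm
  rcases eq_or_lt_of_le hwK.2 with h2 | h2
  · exact hout w h2
  exfalso
  have hnhds : K ∈ 𝓝 w := by
    have hopen : IsOpen {y : ℂ | r < ‖y‖ ∧ ‖y‖ < R} :=
      (isOpen_lt continuous_const continuous_norm).inter
        (isOpen_lt continuous_norm continuous_const)
    exact mem_of_superset (hopen.mem_nhds ⟨h1, h2⟩) fun y hy => ⟨hy.1.le, hy.2.le⟩
  have hpos := laplacian_nonneg_of_min (hd w hwK) (hw.isLocalMin hnhds)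
  have heq : h = u + ε • fun y : ℂ => log ‖y‖ := by
    funext y; simp [hh, smul_eq_mul]
  rw [heq, ContDiffAt.laplacian_add (f₂ := ε • fun y : ℂ => log ‖y‖) (hu w (hne w hwK))
    (contDiffAt_const.smul (hlog w hwK).1),
    laplacian_smul ε (hlog w hwK).1, (hlog w hwK).2.self_of_nhds] at hpos
  simp only [Pi.zero_apply, smul_zero, add_zero] at hpos
  exact absurd hpos (not_le.2 (hlap w (hne w hwK)))

/-- No positive function on the punctured plane has everywhere negative Laplacian. -/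
theorem no_positive_superharmonic {u : ℂ → ℝ} (hu : ∀ z ≠ 0, ContDiffAt ℝ 2 u z)
    (hpos : ∀ z ≠ 0, 0 < u z) (hlap : ∀ z ≠ 0, Δ u z < 0) : False := by
  have hS : IsCompact (Metric.sphere (0 : ℂ) 1) := isCompact_sphere _ _
  have hne : ∀ w : ℂ, ‖w‖ = 1 → w ≠ 0 := by
    rintro w hw rfl
    simp at hw
  obtain ⟨w, hwS, hw⟩ := hS.exists_isMinOn ⟨1, by simp⟩
    (fun w hw => (hu w (hne w (by simpa using hw))).continuousAt.continuousWithinAt)
  have hw1 : ‖w‖ = 1 := by simpa using hwS
  have hcirc : ∀ ε : ℝ, ∀ y : ℂ, ‖y‖ = 1 → u w ≤ u y + ε * log ‖y‖ := fun ε y hy => by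
    have : u w ≤ u y := hw (by simpa using hy)
    simpa [hy] using this
  have key : ∀ z ≠ (0 : ℂ), u w ≤ u z := by
    intro z hz
    have hz0 : 0 < ‖z‖ := norm_pos_iff.2 hz
    by_contra hlt
    push Not at hlt
    set δ : ℝ := (u w - u z) / (|log ‖z‖| + 1) with hδ
    have hδ0 : 0 < δ := div_pos (sub_pos.2 hlt) (by positivity)
    have hδz : δ * |log ‖z‖| < u w - u z := by
      have : δ * (|log ‖z‖| + 1) = u w - u z := div_mul_cancel₀ _ (by positivity)
      nlinarith
    have hM0 : 0 < u w := hpos w (hne w hw1)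
    set T : ℝ := exp (u w / δ) with hT
    have hT1 : 1 ≤ T := one_le_exp (by positivity)
    have hlogT : δ * log T = u w := by rw [hT, log_exp]; field_simp
    rcases le_total 1 ‖z‖ with h1 | h1
    · set R : ℝ := max T ‖z‖
      have h := annulus hu hlap one_pos (R := R) (ε := δ) ⟨h1, le_max_right _ _⟩ (hcirc δ)
        fun y hy => by
          have h2 : log T ≤ log ‖y‖ := by
            rw [hy]; exact log_le_log (by linarith) (le_max_left _ _)
          have h3 := hpos y (norm_pos_iff.1 (by rw [hy]; exact hz0.trans_le (le_max_right _ _)))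
          nlinarith [mul_le_mul_of_nonneg_left h2 hδ0.le]
      have h4 := mul_le_mul_of_nonneg_left (le_abs_self (log ‖z‖)) hδ0.le
      linarith
    · set r : ℝ := min T⁻¹ ‖z‖
      have hr : 0 < r := lt_min (by positivity) hz0
      have h := annulus hu hlap hr (R := 1) (ε := -δ) ⟨min_le_right _ _, h1⟩
        (fun y hy => by
          have h2 : log ‖y‖ ≤ - log T := by
            rw [hy, ← log_inv]; exact log_le_log hr (min_le_left _ _)
          have h3 := hpos y (norm_pos_iff.1 (by rw [hy]; exact hr))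
          nlinarith [mul_le_mul_of_nonneg_left h2 hδ0.le])
        (hcirc (-δ))
      have h4 := mul_le_mul_of_nonneg_left (neg_abs_le (log ‖z‖)) hδ0.le
      linarith
  have hlocal : IsLocalMin u w :=
    mem_of_superset (isOpen_ne.mem_nhds (hne w hw1)) fun z hz => key z hz
  exact absurd (laplacian_nonneg_of_min (hu w (hne w hw1)) hlocal)
    (not_le.2 (hlap w (hne w hw1)))

/-- The planar system has no positive solution, for all exponents and all weights. -/
theorem no_solution (p q A B : ℝ) :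
    ¬ ∃ u v : ℂ → ℝ, (∀ z ≠ 0, ContDiffAt ℝ 2 u z ∧ ContDiffAt ℝ 2 v z ∧ 0 < u z ∧ 0 < v z ∧
      -Δ u z = ‖z‖ ^ A * v z ^ p ∧ -Δ v z = ‖z‖ ^ B * u z ^ q) := by
  rintro ⟨u, v, h⟩
  refine no_positive_superharmonic (fun z hz => (h z hz).1) (fun z hz => (h z hz).2.2.1)
    fun z hz => ?_
  obtain ⟨-, -, -, hv, he, -⟩ := h z hz
  have : 0 < ‖z‖ ^ A * v z ^ p :=
    mul_pos (rpow_pos_of_pos (norm_pos_iff.2 hz) _) (rpow_pos_of_pos hv _)
  linarith

/-- The same on the Euclidean plane. -/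
theorem no_solution_euclidean (p q A B : ℝ) :
    ¬ ∃ u v : EuclideanSpace ℝ (Fin 2) → ℝ,
      (∀ x ≠ 0, ContDiffAt ℝ 2 u x ∧ ContDiffAt ℝ 2 v x ∧ 0 < u x ∧ 0 < v x ∧
        -Δ u x = ‖x‖ ^ A * v x ^ p ∧ -Δ v x = ‖x‖ ^ B * u x ^ q) := by
  rintro ⟨u, v, h⟩
  set e : ℂ ≃ₗᵢ[ℝ] EuclideanSpace ℝ (Fin 2) := Complex.orthonormalBasisOneI.repr with he
  set L : ℂ ≃L[ℝ] EuclideanSpace ℝ (Fin 2) := e.toContinuousLinearEquiv with hL
  have hnorm : ∀ z : ℂ, ‖L z‖ = ‖z‖ := fun z => e.norm_map z
  have hne : ∀ z : ℂ, z ≠ 0 → L z ≠ 0 := fun z hz h0 => hz (L.injective (by simpa using h0))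
  have hlap : ∀ (f : EuclideanSpace ℝ (Fin 2) → ℝ) (z : ℂ), Δ (f ∘ L) z = Δ f (L z) := by
    intro f z
    rw [laplacian_eq_iteratedFDeriv_orthonormalBasis (f ∘ L) Complex.orthonormalBasisOneI,
      laplacian_eq_iteratedFDeriv_orthonormalBasis f (Complex.orthonormalBasisOneI.map e)]
    refine Finset.sum_congr rfl fun i _ => ?_
    rw [← iteratedFDerivWithin_univ, ← iteratedFDerivWithin_univ]
    have hc := L.iteratedFDerivWithin_comp_right f (x := z) uniqueDiffOn_univ (mem_univ _) 2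
    rw [preimage_univ] at hc
    rw [hc, ContinuousMultilinearMap.compContinuousLinearMap_apply]
    congr 1
    funext j
    fin_cases j <;> simp [hL]
  refine no_solution p q A B ⟨u ∘ L, v ∘ L, fun z hz => ?_⟩
  obtain ⟨hu, hv, hu0, hv0, e1, e2⟩ := h (L z) (hne z hz)
  refine ⟨hu.comp z L.contDiff.contDiffAt, hv.comp z L.contDiff.contDiffAt, hu0, hv0, ?_, ?_⟩
  · rw [hlap, ← hnorm z]; exact e1
  · rw [hlap, ← hnorm z]; exact e2

end Vale.Agent.P100.Planar
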